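import Vale.Agent.P277.H335.K.OpenK
import Vale.Agent.P277.H615.Datum2

/-!
# P277, (C): wedges of `Y` with Jacobian of order `< g` are not injective, if `g ≥ 2`
-/

open scoped Manifold ContDiff Topology
open Vale.Agent.P272.K Vale.Agent.P285.H281.FD Vale.Agent.P267.H175 Set Metric Filter

noncomputable section

namespace Vale.Agent.P277.H335.CC

open Vale.Agent.P277 Vale.Agent.P277.T2 Vale.Agent.P277.H335 Vale.Agent.P277.H615
open Vale.Agent.P277.H335.RR Vale.Agent.P277.H335.KK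

variable {Y : Type} [TopologicalSpace Y] [ChartedSpace (Cm 4) Y]

/-- The normal form of a wedge centred in a smooth hypersurface `{ζ = 0}` with Jacobian of order `J`;
`g` is the order of `ζ`. -/
theorem exists_fac {ζ : Y → ℂ} {γ : Cm 4 → Y} {w₂ : Cm 4} (h0 : w₂ 0 = 0)
    (hγ : ContinuousAt γ w₂) {e : Chart 4 Y} (he : At e (γ w₂))
    (hγa : AnalyticAt ℂ (fun w => e (γ w)) w₂)
    (hζ : AnalyticAt ℂ (fun z => ζ (e.symm z)) (e (γ w₂)))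
    (hζd : fderiv ℂ (fun z => ζ (e.symm z)) (e (γ w₂)) ≠ 0) {g J : ℕ} (hg : 1 ≤ g)
    {u u' : Cm 4 → ℂ} (hu : AnalyticAt ℂ u w₂) (hu0 : u w₂ ≠ 0) (hu' : AnalyticAt ℂ u' w₂)
    (hu'0 : u' w₂ ≠ 0) (hs : ∀ᶠ w in 𝓝 w₂, ζ (γ w) = w 0 ^ g * u w)
    (hJ : ∀ᶠ w in 𝓝 w₂, (fderiv ℂ (fun w => e (γ w)) w).det = w 0 ^ J * u' w) :
    g ≤ J + 1 ∧ (¬ g ≤ J → ∃ (Λ : OpenPartialHomeomorph Y (Cm 4))
      (θ : OpenPartialHomeomorph (Cm 4) (Cm 4)) (ρ : Cm 4 → ℂ) (F : Cm 4 → Cm 4),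
      γ w₂ ∈ Λ.source ∧ w₂ ∈ θ.source ∧ AnalyticAt ℂ ρ w₂ ∧ ρ w₂ ≠ 0 ∧
      (∀ w, θ w 0 = w 0 * ρ w) ∧ (∀ i : Fin 3, ∀ w, θ w i.succ = F w i.succ) ∧
      (∀ᶠ w in 𝓝 w₂, F w 0 = θ w 0 ^ g) ∧ ∀ᶠ w in 𝓝 w₂, F w = Λ (γ w)) := by
  obtain ⟨Ψ, h1, h2, h3, h4⟩ := HY.exists_straight hζ hζd
  set F : Cm 4 → Cm 4 := fun w => Ψ (e (γ w)) with hF
  have hFa : AnalyticAt ℂ F w₂ :=
    AnalyticAt.fun_comp (g := Ψ) (f := fun w => e (γ w)) (h2 _ h1) hγa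
  have hsrc : ∀ᶠ w in 𝓝 w₂, γ w ∈ e.source := hγ.eventually_mem (e.open_source.mem_nhds he.2)
  have hsrc2 : ∀ᶠ w in 𝓝 w₂, e (γ w) ∈ Ψ.source :=
    hγa.continuousAt.eventually_mem (Ψ.open_source.mem_nhds h1)
  have hF0 : ∀ᶠ w in 𝓝 w₂, F w 0 = w 0 ^ g * u w := by
    filter_upwards [hs, hsrc] with w g1 g2
    simp only [hF]
    rw [h4, e.left_inv g2, g1]
  have hdetΨ : AnalyticAt ℂ (fun w => (fderiv ℂ Ψ (e (γ w))).det) w₂ :=
    AnalyticAt.fun_comp (g := fun z => (fderiv ℂ Ψ z).det) (f := fun w => e (γ w))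
      (H19.analyticAt_det (h2 _ h1)) hγa
  have hFJ : ∀ᶠ w in 𝓝 w₂, (fderiv ℂ F w).det =
      w 0 ^ J * ((fderiv ℂ Ψ (e (γ w))).det * u' w) := by
    filter_upwards [hJ, hsrc2, hγa.eventually_analyticAt] with w g1 g2 g3
    have h5 := H19.det_fderiv_comp (F := fun w => e (γ w)) (G := Ψ) (w := w)
      (h2 _ g2).differentiableAt g3.differentiableAt
    simp only [hF]
    rw [h5, g1]
    ring
  have hne : (fderiv ℂ Ψ (e (γ w₂))).det * u' w₂ ≠ 0 :=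
    mul_ne_zero (det_ne_zero_of_inv h1 (h2 _ h1) (h3 _ (Ψ.map_source h1))) hu'0
  obtain ⟨k1, k2, -⟩ := H29.stFac F w₂ hFa h0 g J hg u (fun w => (fderiv ℂ Ψ (e (γ w))).det * u' w)
    hu hu0 (hdetΨ.mul hu') hne hF0 hFJ
  refine ⟨k1, fun hlt => ?_⟩
  obtain ⟨ρ, hρ, hρ0, hρg⟩ := exists_root hu hu0 hg
  have hproj : AnalyticAt ℂ (fun w : Cm 4 => w 0) w₂ :=
    (ContinuousLinearMap.proj (R := ℂ) (φ := fun _ : Fin 4 => ℂ) 0).analyticAt w₂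
  have hprojd : fderiv ℂ (fun w : Cm 4 => w 0) w₂ =
      ContinuousLinearMap.proj (R := ℂ) (φ := fun _ : Fin 4 => ℂ) 0 :=
    (ContinuousLinearMap.proj (R := ℂ) (φ := fun _ : Fin 4 => ℂ) 0).fderiv
  have haa : AnalyticAt ℂ (fun w : Cm 4 => w 0 * ρ w) w₂ := hproj.mul hρ
  have had : ∀ v, fderiv ℂ (fun w : Cm 4 => w 0 * ρ w) w₂ v = ρ w₂ * v 0 := by
    intro v
    rw [fderiv_fun_mul hproj.differentiableAt hρ.differentiableAt, hprojd]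
    simp only [ContinuousLinearMap.add_apply, ContinuousLinearMap.smul_apply,
      ContinuousLinearMap.proj_apply, smul_eq_mul]
    rw [h0]
    ring
  obtain ⟨θ, hθ, hθs⟩ := exists_cons_inv' hFa haa hρ0 had (k2 (by omega))
  have hθ0 : ∀ w, θ w 0 = w 0 * ρ w := fun w => by rw [hθ]; rfl
  refine ⟨e.trans Ψ, θ, ρ, F, ?_, hθs, hρ, hρ0, hθ0, fun i w => by rw [hθ]; rfl, ?_,
    Eventually.of_forall fun w => rfl⟩
  · rw [OpenPartialHomeomorph.trans_source]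
    exact ⟨he.2, h1⟩
  · filter_upwards [hF0, hρg] with w g1 g2
    rw [hθ0, mul_pow, g2, g1]

/-- the symmetry of the wedge -/
theorem exists_sym {ζ : Y → ℂ} {γ : Cm 4 → Y} {w₂ : Cm 4} (h0 : w₂ 0 = 0)
    (hγ : ContinuousAt γ w₂) {e : Chart 4 Y} (he : At e (γ w₂))
    (hγa : AnalyticAt ℂ (fun w => e (γ w)) w₂)
    (hζ : AnalyticAt ℂ (fun z => ζ (e.symm z)) (e (γ w₂)))
    (hζd : fderiv ℂ (fun z => ζ (e.symm z)) (e (γ w₂)) ≠ 0) {g J : ℕ} (hg : 2 ≤ g)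
    {u u' : Cm 4 → ℂ} (hu : AnalyticAt ℂ u w₂) (hu0 : u w₂ ≠ 0) (hu' : AnalyticAt ℂ u' w₂)
    (hu'0 : u' w₂ ≠ 0) (hs : ∀ᶠ w in 𝓝 w₂, ζ (γ w) = w 0 ^ g * u w)
    (hJ : ∀ᶠ w in 𝓝 w₂, (fderiv ℂ (fun w => e (γ w)) w).det = w 0 ^ J * u' w) (hlt : ¬ g ≤ J) :
    ∃ τ : Cm 4 → Cm 4, Tendsto τ (𝓝 w₂) (𝓝 w₂) ∧
      ∀ᶠ w in 𝓝 w₂, w 0 ≠ 0 → τ w ≠ w ∧ τ w 0 ≠ 0 ∧ γ (τ w) = γ w := by
  obtain ⟨Λ, θ, ρ, F, h1, h2, h3, h4, h5, h6, h7, h8⟩ :=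
    (exists_fac h0 hγ he hγa hζ hζd (by omega) hu hu0 hu' hu'0 hs hJ).2 hlt
  obtain ⟨η, hη, hηg⟩ : ∃ η : ℂ, η ≠ 1 ∧ η ^ g = 1 := by
    have hg0 : g ≠ 0 := by omega
    refine ⟨Complex.exp (2 * Real.pi * Complex.I / g), ?_, ?_⟩
    · exact (Complex.isPrimitiveRoot_exp g hg0).ne_one (by omega)
    · exact (Complex.isPrimitiveRoot_exp g hg0).pow_eq_one
  have hη0 : η ≠ 0 := by
    rintro rfl
    rw [zero_pow (by omega)] at hηg
    exact zero_ne_one hηg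
  set R : Cm 4 → Cm 4 := fun z => Fin.cons (η * z 0) fun i : Fin 3 => z i.succ with hR
  have hRc : Continuous R := by
    refine continuous_pi fun j => ?_
    refine Fin.cases ?_ (fun j => ?_) j
    · exact continuous_const.mul (continuous_apply 0)
    · exact continuous_apply _
  have hR0 : ∀ z, R z 0 = η * z 0 := fun z => rfl
  have hRs : ∀ z (i : Fin 3), R z i.succ = z i.succ := fun z i => rfl
  have hRy : R (θ w₂) = θ w₂ := by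
    funext j
    refine Fin.cases ?_ (fun j => ?_) j
    · rw [hR0, h5, h0]; ring
    · rw [hRs]
  have hθc : ContinuousAt θ w₂ := θ.continuousAt h2
  have hRθ : Tendsto (fun w => R (θ w)) (𝓝 w₂) (𝓝 (θ w₂)) := by
    have : Tendsto (fun w => R (θ w)) (𝓝 w₂) (𝓝 (R (θ w₂))) :=
      (hRc.tendsto _).comp hθc.tendsto
    rwa [hRy] at this
  have hτ : Tendsto (fun w => θ.symm (R (θ w))) (𝓝 w₂) (𝓝 w₂) := by
    have h9 := (θ.continuousAt_symm (θ.map_source h2)).tendsto.comp hRθ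
    rwa [θ.left_inv h2] at h9
  refine ⟨fun w => θ.symm (R (θ w)), hτ, ?_⟩
  have hsrc : ∀ᶠ w in 𝓝 w₂, γ w ∈ Λ.source := hγ.eventually_mem (Λ.open_source.mem_nhds h1)
  filter_upwards [hRθ.eventually (θ.open_target.mem_nhds (θ.map_source h2)),
    θ.open_source.mem_nhds h2, h3.continuousAt.eventually_ne h4, h7, h8, hsrc, hτ.eventually h7,
    hτ.eventually h8, hτ.eventually hsrc] with w k1 k2 k3 k4 k5 k6 k7 k8 k9 hw0
  have hθτ : θ (θ.symm (R (θ w))) = R (θ w) := θ.right_inv k1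
  have hθw0 : θ w 0 ≠ 0 := by rw [h5]; exact mul_ne_zero hw0 k3
  have hτ0 : θ.symm (R (θ w)) 0 * ρ (θ.symm (R (θ w))) = η * θ w 0 := by
    rw [← h5, hθτ, hR0]
  refine ⟨fun hcon => ?_, fun hcon => ?_, ?_⟩
  · rw [hcon] at hθτ
    have h9 := congrFun hθτ 0
    rw [hR0] at h9
    exact hη (mul_right_cancel₀ hθw0 (by rw [one_mul]; exact h9.symm))
  · rw [hcon, zero_mul] at hτ0
    exact mul_ne_zero hη0 hθw0 hτ0.symm
  · refine Λ.injOn k9 k6 ?_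
    rw [← k8, ← k5]
    funext j
    refine Fin.cases ?_ (fun j => ?_) j
    · rw [k7, k4, hθτ, hR0, mul_pow, hηg, one_mul]
    · rw [← h6, ← h6, hθτ, hRs]

/-- local coordinates adapted to a hypersurface -/
theorem isPar_of_det {γ : Cm 4 → Y} {e : Chart 4 Y} {w₂ : Cm 4} {E : Set Y} (h0 : w₂ 0 = 0)
    {W : Set (Cm 4)} (hW : IsOpen W) (hw₂ : w₂ ∈ W) (hγ : ∀ w ∈ W, ContinuousAt γ w ∧ At e (γ w) ∧
      AnalyticAt ℂ (fun w => e (γ w)) w)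
    (hdet : (fderiv ℂ (fun w => e (γ w)) w₂).det ≠ 0)
    (hmem : ∀ᶠ w in 𝓝 w₂, γ w ∈ E ↔ w 0 = 0) [IsManifold 𝓘(ℂ, Cm 4) ω Y] :
    ∃ r, IsPar E γ w₂ r := by
  have hinj : Function.Injective (fderiv ℂ (fun w => e (γ w)) w₂) := by
    have h1 : LinearMap.det (fderiv ℂ (fun w => e (γ w)) w₂ : Cm 4 →ₗ[ℂ] Cm 4) ≠ 0 := hdet
    exact (LinearMap.equivOfDetNeZero _ h1).injective
  obtain ⟨θ, hθ, hθs, -, -⟩ := H73.exists_localInv (hγ w₂ hw₂).2.2 hinj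
  have hJ : ∀ᶠ w in 𝓝 w₂, (fderiv ℂ (fun w => e (γ w)) w).det ≠ 0 :=
    (H19.analyticAt_det (hγ w₂ hw₂).2.2).continuousAt.eventually_ne hdet
  obtain ⟨r₀, hr₀, hball⟩ := Metric.eventually_nhds_iff_ball.1
    ((hW.eventually_mem hw₂).and ((θ.open_source.eventually_mem hθs).and (hJ.and hmem)))
  set B : Set (Cm 4) := ball w₂ r₀ with hB
  have hBW : B ⊆ W := fun w hw => (hball w hw).1
  have hinjB : InjOn γ B := by
    intro w hw w' hw' hww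
    have h1 : θ w = θ w' := by rw [hθ]; exact congrArg e hww
    exact θ.injOn (hball w hw).2.1 (hball w' hw').2.1 h1
  refine ⟨r₀, hr₀, h0, hinjB, fun U hU hUo => ?_, fun w hw => (hγ w (hBW hw)).1,
    fun w hw e' he' => ?_, fun w hw => (hball w hw).2.2.2⟩
  · have h1 : IsOpen (θ '' U) := θ.isOpen_image_of_subset_source hUo fun w hw => (hball w (hU hw)).2.1
    have h2 : γ '' U = e.symm '' (θ '' U) := by
      rw [image_image]
      refine image_congr fun w hw => ?_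
      rw [hθ]
      exact (e.left_inv (hγ w (hBW (hU hw))).2.1.2).symm
    rw [h2]
    refine e.isOpen_image_symm_of_subset_target h1 ?_
    rintro _ ⟨w, hw, rfl⟩
    rw [hθ]
    exact e.map_source (hγ w (hBW (hU hw))).2.1.2
  · obtain ⟨h1, h2, h3⟩ := hγ w (hBW hw)
    refine ⟨H19.analyticAt_change h1 h2 he' h3, ?_⟩
    have h4 := H19.det_change h1 h2 he' h3
    rw [h4]
    refine mul_ne_zero ?_ (hball w hw).2.2.1
    have h5 := H19.det_jacM_mul (y := γ w) (e := e) (e' := e') h2 he'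
    intro h0
    rw [h0] at h5
    simp at h5

end Vale.Agent.P277.H335.CC
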