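import Vale.Agent.P277.H371.Sing3

/-!
# P277, T6: the singular points in an open subset of a two-dimensional analytic set
-/

open scoped Manifold ContDiff Topology
open Vale.Agent.P272.K Vale.Agent.P285.H281.FD Set Metric Filter

noncomputable section

namespace Vale.Agent.P277.H335.CC

open Vale.Agent.P277.TX Vale.Agent.P277.H335 Vale.Agent.P277.H371

/-- The singular points in an open subset of a two-dimensional analytic set, if the generic points are
regular. -/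
theorem sing_loc {Y : Type} [TopologicalSpace Y] [T2Space Y] [CompactSpace Y]
    [ChartedSpace (Cm 4) Y] [IsManifold 𝓘(ℂ, Cm 4) ω Y] {X : CSp}
    (hX : IsNormal 4 X) {O : Set Y} {v : Y → X.pt} (hv : IsOpenEmb X O v)
    (hdim : DimLe X 2 (v '' O)ᶜ) {S Ω₀ : Set X.pt} (hSan : IsAn X univ S) (hS2 : DimLe X 2 S)
    (hΩ₀ : IsOpen Ω₀)
    (hreg : ∀ U₀ ⊆ Ω₀, IsOpen U₀ → ¬ DimLe X 1 (S ∩ U₀) → ∃ x ∈ S ∩ U₀, IsReg 4 X x) :
    DimLe X 1 {x | x ∈ S ∧ ¬ IsReg 4 X x ∧ x ∈ Ω₀} := by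
  classical
  have hne : Nonempty X.pt := hS2.nonempty
  have hloc : ∀ x ∈ {x | (x ∈ S ∧ IsSurfX X S x) ∧ x ∈ Ω₀}, ∃ N : Set X.pt, IsOpen N ∧ x ∈ N ∧
      DimLe X 1 {y | y ∈ S ∧ y ∈ N ∧ ¬ IsReg 4 X y} := by
    rintro x ⟨⟨hxS, Ω, g, u, hΩ, hg, hxg, hu, hug, hS⟩, hxΩ₀⟩
    obtain ⟨N₀, hN₀s, hN₀, hxN₀⟩ := _root_.mem_nhds_iff.1
      ((eventually_all.2 hu).and (hS.and (hΩ₀.mem_nhds hxΩ₀)))
    have hu' : ∀ y ∈ N₀, ∀ i, X.Hol (fun y => u y i) y := fun y hy => (hN₀s hy).1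
    have hcu : ∀ y ∈ N₀, ContinuousAt u y := fun y hy =>
      continuousAt_pi.2 fun i => hol_continuousAt (hu' y hy i)
    obtain ⟨p, hp, hpx⟩ := hxg
    have hup : u x = p := by rw [← hpx, hug p hp]
    have h1 : ∀ᶠ q in 𝓝 p, q ∈ Ω ∧ g q ∈ N₀ := (hΩ.eventually_mem hp).and
      ((hg p hp).1.eventually_mem (hN₀.mem_nhds (by rw [hpx]; exact hxN₀)))
    obtain ⟨ρ, hρ, hρs⟩ := Metric.eventually_nhds_iff_ball.1 h1
    have hopen : ∀ W : Set (Cm 2), IsOpen W → IsOpen {y | y ∈ N₀ ∧ u y ∈ W} := by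
      intro W hW
      have : ContinuousOn u N₀ := fun y hy => (hcu y hy).continuousWithinAt
      exact this.isOpen_inter_preimage hN₀ hW
    have hdense : ∀ W ⊆ ball p ρ, IsOpen W → W.Nonempty → ∃ q ∈ W, IsReg 4 X (g q) := by
      intro W hWs hW hWn
      have hT : ¬ DimLe X 1 (S ∩ {y | y ∈ N₀ ∧ u y ∈ W}) := by
        refine not_dimLe_of_image hW hWn hN₀ hu' (fun y hy => hy.2.1) ?_
        intro q hq
        have hq' := hρs q (hWs hq)
        have hgq := hug q hq'.1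
        refine ⟨g q, ⟨(hN₀s hq'.2).2.1.2 ⟨by rw [hgq]; exact hq'.1, by rw [hgq]⟩, hq'.2,
          by rw [hgq]; exact hq⟩, hgq⟩
      obtain ⟨y, ⟨hyS, hyN, hyW⟩, hyr⟩ := hreg _ (fun y hy => (hN₀s hy.1).2.2) (hopen W hW) hT
      exact ⟨u y, hyW, by rw [((hN₀s hyN).2.1.1 hyS).2]; exact hyr⟩
    obtain ⟨ρ', hρ', hρ'ρ, hD⟩ := sing_local hX hv hdim hρ
      (fun q hq => hg q (hρs q hq).1) hdense
    have hxb : u x ∈ ball p ρ' := by
      rw [hup]
      exact mem_ball_self hρ'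
    refine ⟨{y | y ∈ N₀ ∧ u y ∈ ball p ρ'}, hopen _ isOpen_ball, ⟨hxN₀, hxb⟩, hD.mono ?_⟩
    rintro y ⟨hyS, ⟨hyN, hyu⟩, hyr⟩
    exact ⟨⟨u y, hyu, ((hN₀s hyN).2.1.1 hyS).2⟩, hyr⟩
  choose! N hN hxN hDN using hloc
  obtain ⟨t, hts, htc, htU⟩ := TopologicalSpace.isOpen_biUnion_countable
    {x | (x ∈ S ∧ IsSurfX X S x) ∧ x ∈ Ω₀} N hN
  have h2 : DimLe X 1 (⋃ x ∈ t, {y | y ∈ S ∧ y ∈ N x ∧ ¬ IsReg 4 X y}) :=
    dimLe_biUnion htc fun x hx => hDN x (hts hx)
  refine (h2.union (H762.stL1 X S hSan hS2)).mono ?_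
  rintro x ⟨hxS, hxr, hxΩ₀⟩
  by_cases hx : IsSurfX X S x
  · refine Or.inl ?_
    have h3 : x ∈ ⋃ y ∈ {x | (x ∈ S ∧ IsSurfX X S x) ∧ x ∈ Ω₀}, N y :=
      mem_biUnion ⟨⟨hxS, hx⟩, hxΩ₀⟩ (hxN x ⟨⟨hxS, hx⟩, hxΩ₀⟩)
    rw [← htU] at h3
    obtain ⟨y, hy, hxy⟩ := mem_iUnion₂.1 h3
    exact mem_iUnion₂.2 ⟨y, hy, hxS, hxy, hxr⟩
  · exact Or.inr ⟨hxS, hx⟩

/-- the number of cycles -/
theorem sum_inv_period {d : ℕ} (σ : Equiv.Perm (Fin d)) (A : Finset (Fin d))
    (hA : ∀ k ∈ A, σ k ∈ A) :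
    ∃ n : ℕ, ∑ k ∈ A, 1 / (Function.minimalPeriod σ k : ℝ) = n := by
  induction h : A.card using Nat.strong_induction_on generalizing A with
  | _ c ih =>
    subst h
    rcases A.eq_empty_or_nonempty with rfl | ⟨k, hk⟩
    · exact ⟨0, by simp⟩
    set p := Function.minimalPeriod σ k with hp
    have hper : k ∈ Function.periodicPts σ := σ.injective.mem_periodicPts k
    have hp0 : 0 < p := Function.minimalPeriod_pos_of_mem_periodicPts hper
    have hiter : ∀ i, σ^[i] k ∈ A := by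
      intro i
      induction i with
      | zero => exact hk
      | succ i ih => rw [Function.iterate_succ_apply']; exact hA _ ih
    set B : Finset (Fin d) := (Finset.range p).image fun i => σ^[i] k with hB
    have hBA : B ⊆ A := by
      intro x hx
      obtain ⟨i, -, rfl⟩ := Finset.mem_image.1 hx
      exact hiter i
    have hinj : Set.InjOn (fun i => σ^[i] k) (Finset.range p : Set ℕ) := by
      intro i hi j hj hij
      exact Function.iterate_injOn_Iio_minimalPeriod (by simpa using hi) (by simpa using hj) hij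
    have hBc : B.card = p := by
      rw [hB, Finset.card_image_of_injOn hinj, Finset.card_range]
    have hkB : k ∈ B := Finset.mem_image.2 ⟨0, Finset.mem_range.2 hp0, rfl⟩
    have hsB : ∑ x ∈ B, 1 / (Function.minimalPeriod σ x : ℝ) = 1 := by
      have h1 : ∀ x ∈ B, 1 / (Function.minimalPeriod σ x : ℝ) = 1 / p := by
        intro x hx
        obtain ⟨i, -, rfl⟩ := Finset.mem_image.1 hx
        rw [Function.minimalPeriod_apply_iterate hper]
      rw [Finset.sum_congr rfl h1, Finset.sum_const, hBc, nsmul_eq_mul]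
      have : (p : ℝ) ≠ 0 := by exact_mod_cast hp0.ne'
      field_simp
    have hAB : ∀ x ∈ A \ B, σ x ∈ A \ B := by
      intro x hx
      obtain ⟨hx1, hx2⟩ := Finset.mem_sdiff.1 hx
      refine Finset.mem_sdiff.2 ⟨hA x hx1, fun h1 => hx2 ?_⟩
      obtain ⟨i, hi, hix⟩ := Finset.mem_image.1 h1
      rcases i with _ | i
      · -- `σ x = k`
        have h2 : σ^[p] k = k := Function.iterate_minimalPeriod
        obtain ⟨q, hq⟩ : ∃ q, p = q + 1 := ⟨p - 1, by omega⟩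
        rw [hq, Function.iterate_succ_apply'] at h2
        refine Finset.mem_image.2 ⟨q, Finset.mem_range.2 (by omega), σ.injective ?_⟩
        rw [h2]
        exact hix
      · refine Finset.mem_image.2 ⟨i, Finset.mem_range.2 (by
          have := Finset.mem_range.1 hi; omega), σ.injective ?_⟩
        rw [← hix]
        exact (Function.iterate_succ_apply' _ _ _).symm
    obtain ⟨n, hn⟩ := ih (A \ B).card (by
      have := Finset.card_sdiff_add_card_eq_card hBA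
      omega) (A \ B) hAB rfl
    refine ⟨n + 1, ?_⟩
    rw [← Finset.sum_sdiff hBA, hn, hsB]
    push_cast
    rfl

end Vale.Agent.P277.H335.CC
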