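import Vale.Agent.P277.H335.C.Alt
import Vale.Agent.P277.H335.C.Loc
import Vale.Agent.P277.H335.M.ClassM
import Vale.Agent.P277.H884.S.Neg4
import Vale.Agent.P277.H371.I.Stp

/-!
# P277, T6: the wedges of a good covering
-/

open scoped Manifold ContDiff ComplexOrder Topology
open Vale.Agent.P272.K Vale.Agent.P285.H281.FD Vale.Agent.P267.H175 Set Metric Filter

noncomputable section

namespace Vale.Agent.P277.H335.CC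

open Vale.Agent.P277 Vale.Agent.P277.T2 Vale.Agent.P277.H335 Vale.Agent.P277.H615
open Vale.Agent.P277.H335.RR Vale.Agent.P277.H335.KK Vale.Agent.P277.H335.RC
open Vale.Agent.P277.H371
open Vale.Agent.P277.H884.S (Stp VL0 VL0.of_vl rt rt_pow norm_rt)

section vl
variable {Y : Type} [TopologicalSpace Y] [ChartedSpace (Cm 4) Y] {X : CSp} {O : Set Y}
  {v : Y → X.pt} {k : ℕ} {L : Fin k → Bd X.pt} {M : Fin k → Bd Y} {m Q : Fin k → ℕ}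
  {T : ∀ e, (L e).ι → ((((Bd.can 4 Y).pow (m e)).mul (M e)).pow (Q e)).ι → Y → ℂ}

theorem vl0_of_unit (hM : ∀ e, IsLB 4 (M e)) (hL : ∀ e, IsLBx X (L e))
    (hT : ∀ e, IsIsoY O v (L e) ((((Bd.can 4 Y).pow (m e)).mul (M e)).pow (Q e)) (T e))
    {φ : Cm 4 → X.pt} {w₁ : Cm 4} (hφ : HolAt X φ w₁) {i₀ : ∀ e, (L e).ι}
    (hi₀ : ∀ e, φ w₁ ∈ (L e).U (i₀ e)) {γ : Cm 4 → Y} {ch : Chart 4 Y} {μ : ∀ e, (M e).ι}
    {i : ∀ e, (L e).ι} {x : Fin k → ℚ} {J K : ℕ} {ν : Fin k → ℤ} {Φ : Fin k → Cm 4 → ℂ} {C : ℝ}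
    (hK : 1 ≤ K) (h1 : ContinuousAt γ w₁) (h2 : At ch (γ w₁)) (h3 : ∀ e, γ w₁ ∈ (M e).U (μ e))
    (h4 : AnalyticAt ℂ (fun w => ch (γ w)) w₁)
    (h5 : ∀ᶠ w in 𝓝 w₁, φ w ∈ v '' O → γ w ∈ O ∧ v (γ w) = φ w)
    (h6 : ∀ e, φ w₁ ∈ (L e).U (i e)) (hν : ∀ e, (ν e : ℚ) = x e * K)
    (h7 : ∀ e, AnalyticAt ℂ (Φ e) w₁ ∧ Φ e w₁ ≠ 0)
    (h8 : ∀ e, ∀ᶠ w in 𝓝 w₁, γ w ∈ O → w 0 ≠ 0 →
      T e (i e) (ch, μ e) (γ w) ^ K = w 0 ^ ν e * Φ e w)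
    (h9 : ∀ᶠ w in 𝓝 w₁, ‖(fderiv ℂ (fun w => ch (γ w)) w).det‖ ≤ C * ‖w 0‖ ^ J) :
    VL0 O v L M m Q T φ w₁ i₀ γ ch μ (fun e => (x e : ℝ)) J := by
  refine ⟨h1, h2, h3, h4, h5, fun e => ?_, ⟨C, h9⟩⟩
  have c1 : ∀ᶠ w in 𝓝 w₁, At ch (γ w) := by
    filter_upwards [h1.eventually_mem (ch.open_source.mem_nhds h2.2)] with w hw
    exact ⟨h2.1, hw⟩
  have c2 : ∀ᶠ w in 𝓝 w₁, ‖Φ e w‖ < ‖Φ e w₁‖ + 1 :=
    (h7 e).1.continuousAt.norm.eventually_lt_const (lt_add_one _)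
  have c3 : ∀ᶠ w in 𝓝 w₁, ‖(L e).g (i e) (i₀ e) (φ w)‖ < ‖(L e).g (i e) (i₀ e) (φ w₁)‖ + 1 :=
    (hφ.analyticAt ((hL e).holo _ _ _ (h6 e) (hi₀ e))).continuousAt.norm.eventually_lt_const
      (lt_add_one _)
  have hx : (x e : ℝ) = (ν e : ℝ) / K := by
    have h10 : (K : ℝ) ≠ 0 := by exact_mod_cast (Nat.one_le_iff_ne_zero.1 hK)
    rw [eq_div_iff h10]
    exact_mod_cast (hν e).symm
  refine ⟨(‖(L e).g (i e) (i₀ e) (φ w₁)‖ + 1) * (‖Φ e w₁‖ + 1) ^ ((K : ℝ)⁻¹), ?_⟩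
  filter_upwards [c1, c2, c3, h1.eventually_mem (((hM e).isOpen (μ e)).mem_nhds (h3 e)), h5, h8 e,
    hφ.1.eventually_mem (((hL e).isOpen (i e)).mem_nhds (h6 e)),
    hφ.1.eventually_mem (((hL e).isOpen (i₀ e)).mem_nhds (hi₀ e))]
    with w d1 d2 d3 d4 d5 d6 d7 d8 hw0 hw
  obtain ⟨g1, g2⟩ := d5 hw
  have h11 := isoY_frame (hL e) (hT e) g1 (i := i e) (i₀ := i₀ e) (by rw [g2]; exact d7)
    (by rw [g2]; exact d8) d1 d4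
  have ht : 0 < ‖w 0‖ := norm_pos_iff.2 hw0
  have h12 : ‖T e (i e) (ch, μ e) (γ w)‖ ^ K ≤ (‖Φ e w₁‖ + 1) * ‖w 0‖ ^ ν e := by
    rw [← norm_pow, d6 g1 hw0, norm_mul, norm_zpow, mul_comm]
    exact mul_le_mul_of_nonneg_right d2.le (zpow_nonneg (norm_nonneg _) _)
  have h13 := le_root hK (by positivity) ht h12 (norm_nonneg _)
  rw [h11, norm_mul, g2, mul_assoc, hx]
  exact mul_le_mul d3.le h13 (norm_nonneg _) (by positivity)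

end vl

section place
variable {Y : Type} [TopologicalSpace Y] [ChartedSpace (Cm 4) Y] {X V₀ : CSp} {O D : Set Y}
  {v : Y → X.pt} {vV : Y → V₀.pt} {k s : ℕ} {L : Fin (k + s) → Bd X.pt} {M : Fin (k + s) → Bd Y}
  {m P Q : Fin (k + s) → ℕ}
  {T : ∀ e, (L e).ι → (((Bd.can 4 Y).pow (m e)).mul (M e)).ι → Y → ℂ} {ρ : Fin (k + s) → ℝ}
  {S : Set X.pt} {r : ℕ} {G : Fin r → Set Y} {φ : Cm 4 → X.pt} {w₁ : Cm 4}

/-- the wedge `φ` is the image of an open subset of `Y`, centred in a `G l` -/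
def PlC (O : Set Y) (v : Y → X.pt)
    (T : ∀ e, (L e).ι → (((Bd.can 4 Y).pow (m e)).mul (M e)).ι → Y → ℂ) (Q : Fin (k + s) → ℕ)
    (ρ : Fin (k + s) → ℝ) (S : Set X.pt) (G : Fin r → Set Y) (φ : Cm 4 → X.pt) (w₁ : Cm 4) : Prop :=
  ∃ (l : Fin r) (W₁ : Set (Cm 4)) (γ : Cm 4 → Y) (ch : Chart 4 Y) (μ : ∀ e, (M e).ι)
    (i : ∀ e, (L e).ι) (x : Fin (k + s) → ℚ) (r₁ : ℝ), GermV O v T S W₁ w₁ φ γ ch μ i x 0 ∧
    IsPar (G l) γ w₁ r₁ ∧ (∀ i : Fin s, x (Fin.natAdd k i) ≤ 0) ∧ -1 < ∑ e, ρ e / Q e * x e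

theorem PlC.near (h : PlC O v T Q ρ S G φ w₁) : ∀ᶠ w in 𝓝 w₁, w 0 = 0 → PlC O v T Q ρ S G φ w := by
  obtain ⟨l, W₁, γ, ch, μ, i, x, r₁, hg, hp, hx, hv⟩ := h
  filter_upwards [MM.germV_move hg, hg.isOpen.mem_nhds hg.mem, ball_mem_nhds w₁ hp.pos]
    with w h1 h2 h3 h0
  obtain ⟨r₂, hr₂, hs⟩ := Metric.isOpen_iff.1 isOpen_ball w h3
  exact ⟨l, W₁, γ, ch, μ, i, x, r₂, h1 h0 W₁ subset_rfl hg.isOpen h2, hp.restrict h0 hr₂ hs, hx, hv⟩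

theorem germ_lift {W : Set (Cm 4)} {γ : Cm 4 → Y} {ch : Chart 4 Y} {μ : ∀ e, (M e).ι}
    {i : ∀ e, (L e).ι} {x : Fin (k + s) → ℚ} {J : ℕ} (h : GermV O v T S W w₁ φ γ ch μ i x J) :
    ∀ᶠ w in 𝓝 w₁, φ w ∈ v '' O → γ w ∈ O ∧ v (γ w) = φ w := by
  filter_upwards [h.isOpen.mem_nhds h.mem] with w hw hwO
  exact ⟨h.lift1 w hw hwO, h.lift2 w hw (h.lift1 w hw hwO)⟩

theorem vl0_of_germ (hM : ∀ e, IsLB 4 (M e))
    (htw : ∀ e, Tw0 vV D (((Bd.can 4 Y).pow (m e)).mul (M e)) X (L e) O v (P e) (Q e) (T e))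
    {W : Set (Cm 4)} {γ : Cm 4 → Y} {ch : Chart 4 Y} {μ : ∀ e, (M e).ι} {i i₀ : ∀ e, (L e).ι}
    {x : Fin (k + s) → ℚ} {J : ℕ} (h : GermV O v T S W w₁ φ γ ch μ i x J)
    (hi₀ : ∀ e, φ w₁ ∈ (L e).U (i₀ e)) :
    VL0 O v (fun e : Fin k => (L (Fin.castAdd s e)).pow (P (Fin.castAdd s e)))
      (fun e => M (Fin.castAdd s e)) (fun e => m (Fin.castAdd s e)) (fun e => Q (Fin.castAdd s e))
      (fun e => T (Fin.castAdd s e)) φ w₁ (fun e => i₀ (Fin.castAdd s e)) γ ch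
      (fun e => μ (Fin.castAdd s e)) (fun e => (x (Fin.castAdd s e) : ℝ)) J := by
  obtain ⟨FJ, hF1, hF2, hF3⟩ := h.jac
  obtain ⟨K, hK, hu⟩ := h.unit
  choose ν Φ u1 u2 u3 u4 using hu
  obtain ⟨h1, h2, h4⟩ := h.lift w₁ h.mem
  refine vl0_of_unit (i := fun e => i (Fin.castAdd s e)) (C := ‖FJ w₁‖ + 1)
    (ν := fun e => ν (Fin.castAdd s e)) (Φ := fun e => Φ (Fin.castAdd s e)) (K := K)
    (fun e => hM _) (fun e => (htw _).lb) (fun e => (htw _).iso) (h.hol w₁ h.mem) (fun e => hi₀ _)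
    hK h1 h2 (fun e => h.memN w₁ h.mem _) h4 (germ_lift h) (fun e => h.memU w₁ h.mem _)
    (fun e => u1 _) (fun e => ⟨u2 _, u3 _⟩) (fun e => u4 _) ?_
  filter_upwards [hF3, hF1.continuousAt.norm.eventually_lt continuousAt_const (lt_add_one _)]
    with w k1 k2
  rw [k1, norm_mul, norm_pow, mul_comm]
  exact mul_le_mul_of_nonneg_right k2.le (by positivity)

/-- the place germs of the sheets of a cycle -/
theorem germ_rot [T2Space Y] (hv : IsOpenEmb X O v) (hSO : S ⊆ (v '' O)ᶜ) (h0 : w₁ 0 = 0)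
    {φ' : Cm 4 → X.pt}
    {W W' : Set (Cm 4)} {γ γ' : Cm 4 → Y} {ch ch' : Chart 4 Y} {μ μ' : ∀ e, (M e).ι}
    {i i' : ∀ e, (L e).ι} {x x' : Fin (k + s) → ℚ} {J J' : ℕ}
    (h : GermV O v T S W w₁ φ γ ch μ i x J) (h' : GermV O v T S W' w₁ φ' γ' ch' μ' i' x' J')
    {R : Cm 4 → Cm 4} (hR : Continuous R) (hRw : R w₁ = w₁)
    (hrot : ∀ᶠ w in 𝓝 w₁, w 0 ≠ 0 → φ' w = φ (R w)) :
    ∀ᶠ w in 𝓝 w₁, γ' w = γ (R w) := by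
  have hRt : Tendsto R (𝓝 w₁) (𝓝 w₁) := by
    have := hR.tendsto w₁
    rwa [hRw] at this
  have hev : ∀ᶠ w in 𝓝 w₁, (w 0 ≠ 0 → φ' w = φ (R w)) ∧ w ∈ W' ∧ R w ∈ W :=
    hrot.and ((h'.isOpen.eventually_mem h'.mem).and (hRt.eventually (h.isOpen.eventually_mem h.mem)))
  obtain ⟨U, hUs, hU, hwU⟩ := _root_.mem_nhds_iff.1 hev
  filter_upwards [hU.mem_nhds hwU] with w hw
  by_contra hne
  obtain ⟨-, hw1, hw2⟩ := hUs hw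
  have hc1 : ContinuousAt γ' w := (h'.lift w hw1).1
  have hc2 : ContinuousAt (fun w => γ (R w)) w :=
    ContinuousAt.comp (g := γ) (h.lift _ hw2).1 hR.continuousAt
  have hd : ∀ᶠ w' in 𝓝 w, γ' w' ≠ γ (R w') := by
    obtain ⟨A, B, hA, hB, hA', hB', hAB⟩ := t2_separation hne
    filter_upwards [hc1.eventually_mem (hA.mem_nhds hA'), hc2.eventually_mem (hB.mem_nhds hB')]
      with w' k1 k2 k3
    exact disjoint_left.1 hAB k1 (by rw [k3]; exact k2)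
  obtain ⟨w', ⟨hw'O, hw'0⟩, hw'd, hw'U⟩ :=
    ((h'.freqO hSO hw1).and_eventually (hd.and (hU.eventually_mem hw))).exists
  obtain ⟨k1, k2, k3⟩ := hUs hw'U
  refine hw'd ?_
  have e1 : v (γ' w') = φ' w' := h'.lift2 w' k2 hw'O
  have e2 : φ (R w') ∈ v '' O := ⟨γ' w', hw'O, by rw [e1, k1 hw'0]⟩
  have e3 := h.lift1 _ k3 e2
  exact hv.inj hw'O e3 (by rw [e1, h.lift2 _ k3 e3, k1 hw'0])

end place

end Vale.Agent.P277.H335.CC
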