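import Vale.Agent.P277.H335.C.Lev
import Vale.Agent.P277.H335.K.RegG

/-!
# P277, T6: the numbers attached to a flipped surface along which the space is singular
-/

open scoped Manifold ContDiff ComplexOrder Topology
open Vale.Agent.P272.K Vale.Agent.P285.H281.FD Vale.Agent.P267.H175 Set Metric Filter

noncomputable section

namespace Vale.Agent.P277.H335.CC

open Vale.Agent.P277 Vale.Agent.P277.T2 Vale.Agent.P277.H335 Vale.Agent.P277.H615
open Vale.Agent.P277.H335.RR Vale.Agent.P277.H335.KK Vale.Agent.P277.H335.RC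
open Vale.Agent.P277.H371 Vale.Agent.P277.TX
open Vale.Agent.P277.H884.S (Stp VL0 VL0.of_vl rt rt_pow norm_rt)

/-- A flipped surface along which the space `X` is singular: all wedges of a good covering are open
subsets of the resolution, centred in the `G l`. -/
theorem stage_X {Y : Type} [TopologicalSpace Y] [T2Space Y] [CompactSpace Y]
    [ChartedSpace (Cm 4) Y] [IsManifold 𝓘(ℂ, Cm 4) ω Y]
    {χ : Chart 4 Y → Cm 4 → Matrix (Fin 4) (Fin 4) ℂ} (hχ : IsKahler χ) {k s : ℕ}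
    {V₀ X : CSp} {vV : Y → V₀.pt} {D : Set Y}
    {M : Fin (k + s) → Bd Y} {m : Fin (k + s) → ℕ}
    {L : Fin (k + s) → Bd X.pt} {O : Set Y} {v : Y → X.pt}
    {P Q : Fin (k + s) → ℕ}
    {T : ∀ e, (L e).ι → (((Bd.can 4 Y).pow (m e)).mul (M e)).ι → Y → ℂ} {ρ : Fin (k + s) → ℝ}
    {S Nc : Set X.pt} {N : Set Y} {H : Fin s → Type} [∀ i, TopologicalSpace (H i)]
    [∀ i, ChartedSpace (Cm 3) (H i)] {ι : ∀ i, H i → Y}
    {sg : ∀ i : Fin s, (M (Fin.natAdd k i)).ι → Y → ℂ} {r : ℕ} {G : Fin r → Set Y}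
    {a : Fin r → ℝ} {Ks : Set (Fin r)}
    (hNef : ∀ e : Fin k, Nef χ (M (Fin.castAdd s e)))
    (hm : ∀ e : Fin k, 1 ≤ m (Fin.castAdd s e))
    (hsum : ∑ e : Fin k, ρ (Fin.castAdd s e) * m (Fin.castAdd s e) = 1)
    (hX : IsNormal 4 X) (hv : IsOpenEmb X O v) (hO : DimLe X 2 (v '' O)ᶜ)
    (hM : ∀ e, IsLB 4 (M e))
    (htw : ∀ e, Tw0 vV D (((Bd.can 4 Y).pow (m e)).mul (M e)) X (L e) O v (P e) (Q e) (T e))
    (hlb : ∀ e, IsLBx X (L e))
    (hch : ∀ (W : Set (Cm 4)) (w₀ : Cm 4) (γ' : Cm 4 → X.pt) (i : ∀ e, (L e).ι), IsOpen W →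
      w₀ ∈ W → w₀ 0 = 0 → (∀ w ∈ W, HolAt X γ' w) → W ⊆ closure {w | w ∈ W ∧ γ' w ∈ v '' O} →
      (∀ w ∈ W, ∀ e, γ' w ∈ (L e).U (i e)) → (∀ w ∈ W, w 0 = 0 → γ' w ∈ S ∧ γ' w ∉ Nc) →
      ∃ w₁ ∈ W, w₁ 0 = 0 ∧ ∃ (W₁ : Set (Cm 4)) (γ₀ : Cm 4 → Y) (ch : Chart 4 Y)
        (c : ∀ e, (((Bd.can 4 Y).pow (m e)).mul (M e)).ι) (q : Fin (k + s) → ℚ), IsOpen W₁ ∧
        w₁ ∈ W₁ ∧ W₁ ⊆ W ∧
        (∀ w ∈ W₁, ContinuousAt γ₀ w ∧ At ch (γ₀ w) ∧ AnalyticAt ℂ (fun w => ch (γ₀ w)) w ∧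
          ∀ e, γ₀ w ∈ (((Bd.can 4 Y).pow (m e)).mul (M e)).U (c e)) ∧
        (∀ w ∈ W₁, γ' w ∈ v '' O → γ₀ w ∈ O) ∧ (∀ w ∈ W₁, γ₀ w ∈ O → v (γ₀ w) = γ' w) ∧
        (∀ e, HasOrd {w | γ₀ w ∈ O} w₁ (fun w => T e (i e) (c e) (γ₀ w)) (q e)) ∧
        (∃ b, OrdG G a γ₀ w₁ b ∧ b < ∑ e, ρ e / Q e * q e) ∧ ∀ w ∈ W₁, w 0 = 0 → γ₀ w ∉ N)
    (hcan : ∀ l ∉ Ks, 0 ≤ a l ∨ G l ⊆ N) (hK1 : ∀ l ∈ Ks, -1 ≤ a l)
    (hK2 : ∀ l ∈ Ks, ∀ l' ∈ Ks, l ≠ l' → G l ∩ G l' ⊆ N)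
    (hK3 : ∀ l ∈ Ks, ∀ i, G l ∩ range (ι i) ⊆ N)
    (hρ : ∀ e, 0 < ρ e)
    (hlt : ∀ i : Fin s, ρ (Fin.natAdd k i) ≤ 1 ∨ range (ι i) ⊆ N)
    (hbd : ∀ i, T3.IsBd (ι i) (M (Fin.natAdd k i)) (sg i))
    (hdis : Pairwise fun i j => Disjoint (range (ι i)) (range (ι j)))
    (hdn : ∀ i, range (ι i) ⊆ closure (range (ι i) ∩ O))
    (hsec : ∀ i, SecRel (L (Fin.natAdd k i))
      (((Bd.can 4 Y).pow (m (Fin.natAdd k i))).mul (M (Fin.natAdd k i))) O v
      (P (Fin.natAdd k i)) (Q (Fin.natAdd k i)) (T (Fin.natAdd k i)) (fun b y => sg i b.2 y))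
    (hSO : S ⊆ (v '' O)ᶜ) (hSan : IsAn X univ S) (hNc : IsClosed Nc)
    (hbad : ¬ DimLe X 1 {x | x ∈ S ∧ ¬ IsReg 4 X x ∧ x ∈ Ncᶜ}) :
    ∃ (d : ℕ) (sS : Fin d → ℕ) (l : Fin d → Fin r) (w₁ : Cm 4) (φ : Fin d → Cm 4 → X.pt)
      (W : Fin d → Set (Cm 4)) (γ : Fin d → Cm 4 → Y) (ch : Fin d → Chart 4 Y)
      (μ : Fin d → ∀ e, (M e).ι) (i : Fin d → ∀ e, (L e).ι) (x : Fin d → Fin (k + s) → ℚ)
      (lam : Fin (k + s) → ℤ) (n : Fin r → ℕ), 1 ≤ d ∧ (∀ k', 1 ≤ sS k') ∧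
      (∀ k', GermV O v T S (W k') w₁ (φ k') (γ k') (ch k') (μ k') (i k') (x k') 0) ∧
      (∀ k', ∃ r₁, IsPar (G (l k')) (γ k') w₁ r₁) ∧
      (∀ k', -1 < ∑ e, ρ e / Q e * x k' e) ∧
      (∀ l₀, (n l₀ : ℝ) = ∑ k', if l k' = l₀ then 1 / (sS k' : ℝ) else 0) ∧
      (∀ e, (lam e : ℝ) = ∑ k', (x k' e : ℝ) / (Q e * sS k')) ∧
      (∀ e, (lam e : ℝ) ≤ 2 * m e) ∧ ∑ l, (n l : ℝ) + ∑ e, ρ e * lam e ≤ 2 := by
  have hS2 : DimLe X 2 S := hO.mono hSO
  obtain ⟨U₀, hU₀s, hU₀, hS1, hU₀r⟩ : ∃ U₀ ⊆ Ncᶜ, IsOpen U₀ ∧ ¬ DimLe X 1 (S ∩ U₀) ∧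
      ∀ x ∈ S ∩ U₀, ¬ IsReg 4 X x := by
    by_contra hcon
    push Not at hcon
    exact hbad (sing_loc hX hv hO hSan hS2 hNc.isOpen_compl fun U₀ h1 h2 h3 => hcon U₀ h1 h2 h3)
  obtain ⟨V', Gc, c, rr, d, lm, θ, nn, ζ, hVU, hg, hζ⟩ := TX.stMinLoc_final Y X hX O v hv
    hO S hSan U₀ hU₀ (fun x hx => hSO hx.1) hS1
  have hd1 : 1 ≤ d := hg.dpos
  have hd2 : 2 ≤ d := by
    by_contra hcon
    have hd : d = 1 := by omega
    subst hd
    have hc := hg.toIsCov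
    obtain ⟨x, hxV, hxc⟩ := (hc.finite c (mem_ball_self hc.pos)).2
    have hxS : x ∈ S := (hg.memS x hxV).2 (by rw [hxc]; exact ⟨hg.c0, hg.c1⟩)
    obtain ⟨s, hs1, hs2⟩ := (H335.IsCov.toPre hc).sec_of_one (fun a ha b hb hab hθ => by
      obtain ⟨y, hy⟩ := hc.enum (Gc a) (hc.maps a ha) hθ
      obtain ⟨k, hk⟩ := (hy.2 a).2 ⟨ha, rfl⟩
      obtain ⟨l, hl⟩ := (hy.2 b).2 ⟨hb, hab.symm⟩
      rw [← hk, ← hl, Subsingleton.elim k l]) ⟨x, hxV⟩ hζ
    exact hU₀r x ⟨hxS, hVU hxV⟩ (H371.isReg_of_sec hc.holo ⟨V', s, hc.isOpen, hxV, Subset.rfl,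
      hc.openMap _ Subset.rfl hc.isOpen, fun y hy => ⟨hs2 y hy, (hs1 _ (hc.maps y hy)).2.2⟩⟩)
  -- the wedges
  have hPo : ∀ (φ : Cm 4 → X.pt) (w : Cm 4), HolAt X φ w → (w 0 = 0 → (LiftV O v
      (fun e : Fin k => (L (Fin.castAdd s e)).pow (P (Fin.castAdd s e)))
      (fun e => M (Fin.castAdd s e)) (fun e => m (Fin.castAdd s e)) (fun e => Q (Fin.castAdd s e))
      (fun e => T (Fin.castAdd s e)) (fun e => ρ (Fin.castAdd s e)) φ w ∨
      PlC O v T Q ρ S G φ w)) → ∀ᶠ w' in 𝓝 w, (w' 0 = 0 → (LiftV O v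
      (fun e : Fin k => (L (Fin.castAdd s e)).pow (P (Fin.castAdd s e)))
      (fun e => M (Fin.castAdd s e)) (fun e => m (Fin.castAdd s e)) (fun e => Q (Fin.castAdd s e))
      (fun e => T (Fin.castAdd s e)) (fun e => ρ (Fin.castAdd s e)) φ w' ∨
      PlC O v T Q ρ S G φ w')) := by
    intro φ w hφ h
    by_cases hw0 : w 0 = 0
    · rcases h hw0 with h1 | h1
      · filter_upwards [RC.liftV_eventually (fun e => hM _) (fun e => (htw _).lb) hφ.1 h1]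
          with w' h2 _
        exact Or.inl h2
      · filter_upwards [h1.near] with w' h2 h0
        exact Or.inr (h2 h0)
    · filter_upwards [(continuous_apply 0).continuousAt.eventually_ne hw0] with w' h2 h3
      exact absurd h3 h2
  obtain ⟨V₁, r₁, aa, b, κ, Nn, sS, σ, φ, w₁, hst, hV₁, ⟨i₀, hi₀⟩, hP⟩ :=
    H884.S.exists_stp (ι' := ∀ e, (L e).ι) (U := fun i => ⋂ e, (L e).U (i e)) hX hv hO hSan hS2 hg
    hζ hPo (fun W w₀ φ hW hw₀ h0 hφ hS hcl hV hinj => by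
      obtain ⟨w₁, h1, h2, h3⟩ := wedge_alt hM htw hlb hch hcan hK1 hK2 hK3 hρ hlt hbd hdis hdn hsec
        hSO hW hw₀ h0 hφ hS (fun w hw => hU₀s (hVU (hV w hw))) hcl hinj
      exact ⟨w₁, h1, h2, fun _ => h3⟩)
    (fun i => isOpen_iInter_of_finite fun e => (hlb e).isOpen _)
    (fun x => by
      choose i hi using fun e => (hlb e).cover x
      exact ⟨i, mem_iInter.2 hi⟩)
  have h0 := hst.w0
  have hφ₁ : ∀ k', HolAt X (φ k') w₁ := fun k' => (hst.pui k').self_of_nhds.1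
  have hφV : ∀ k', φ k' w₁ ∈ V₁ := fun k' => (hst.pui k').self_of_nhds.2.1
  have hi₀' : ∀ k' e, φ k' w₁ ∈ (L e).U (i₀ e) := fun k' e => mem_iInter.1 (hi₀ (hφV k')) e
  have hVL : ∀ e, V₁ ⊆ (L e).U (i₀ e) := fun e x hx => mem_iInter.1 (hi₀ hx) e
  have hP' := fun k' => hP k' h0
  have hall : ∀ k', ∃ (γ : Cm 4 → Y) (ch : Chart 4 Y) (μ : ∀ e : Fin k, (M (Fin.castAdd s e)).ι)
      (τ : Fin k → ℝ) (J : ℕ), VL0 O v
      (fun e : Fin k => (L (Fin.castAdd s e)).pow (P (Fin.castAdd s e)))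
      (fun e => M (Fin.castAdd s e)) (fun e => m (Fin.castAdd s e)) (fun e => Q (Fin.castAdd s e))
      (fun e => T (Fin.castAdd s e)) (φ k') w₁ (fun e => i₀ (Fin.castAdd s e)) γ ch μ τ J ∧
      (LiftV O v (fun e : Fin k => (L (Fin.castAdd s e)).pow (P (Fin.castAdd s e)))
        (fun e => M (Fin.castAdd s e)) (fun e => m (Fin.castAdd s e)) (fun e => Q (Fin.castAdd s e))
        (fun e => T (Fin.castAdd s e)) (fun e => ρ (Fin.castAdd s e)) (φ k') w₁ →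
        0 < ∑ e, ρ (Fin.castAdd s e) * (τ e / Q (Fin.castAdd s e)) + J) := by
    intro k'
    by_cases hl : LiftV O v (fun e : Fin k => (L (Fin.castAdd s e)).pow (P (Fin.castAdd s e)))
        (fun e => M (Fin.castAdd s e)) (fun e => m (Fin.castAdd s e)) (fun e => Q (Fin.castAdd s e))
        (fun e => T (Fin.castAdd s e)) (fun e => ρ (Fin.castAdd s e)) (φ k') w₁
    · obtain ⟨γ, ch, μ, τ, J, h1⟩ := liftV_vl (fun e => hM _) (fun e => (htw _).lb)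
        (fun e => (htw _).iso) (hφ₁ k') (i₀ := fun e => i₀ (Fin.castAdd s e)) (fun e => hi₀' k' _) hl
      exact ⟨γ, ch, μ, τ, J, VL0.of_vl h1, fun _ => h1.pos⟩
    · obtain ⟨l, W₁, γ, ch, μ, i, x, r₁, hgm, -⟩ := (hP' k').resolve_left hl
      exact ⟨γ, ch, _, _, 0, vl0_of_germ hM htw hgm (hi₀' k'), fun h => (hl h).elim⟩
  have hno : ∀ k', ¬ LiftV O v (fun e : Fin k => (L (Fin.castAdd s e)).pow (P (Fin.castAdd s e)))
      (fun e => M (Fin.castAdd s e)) (fun e => m (Fin.castAdd s e)) (fun e => Q (Fin.castAdd s e))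
      (fun e => T (Fin.castAdd s e)) (fun e => ρ (Fin.castAdd s e)) (φ k') w₁ := by
    intro k' hk'
    choose γ ch μ τ J hl hp using hall
    have h1 := H884.S.stp_neg hst hχ (fun e => hM _) hNef hm (fun e => hρ _) hsum hv hO
      (fun e => (htw _).lb) (fun e => (htw _).hQ) (fun e => (htw _).iso) (fun e => hVL _) hl
      (k₀ := k') (hp k' hk')
    omega
  choose l₁ W γ ch μ i x r₂ hgm hpar hx0 hval using fun k' => (hP' k').resolve_left (hno k')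
  -- the `G l` of a sheet
  set A : Fin d → Set (Fin r) := fun k' => {l | ∀ᶠ w in 𝓝 w₁, γ k' w ∈ G l ↔ w 0 = 0} with hA
  have hAl : ∀ k', l₁ k' ∈ A k' := fun k' => by
    filter_upwards [ball_mem_nhds w₁ (hpar k').pos] with w hw using (hpar k').mem w hw
  have hAs : ∀ k', A k' ⊆ A (σ k') := by
    intro k' l hl
    set R : Cm 4 → Cm 4 := fun w => ![rt (sS k') * w 0, w 1, w 2, w 3] with hR
    have hRc : Continuous R := by
      refine continuous_pi fun j => ?_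
      fin_cases j
      · exact continuous_const.mul (continuous_apply 0)
      · exact continuous_apply 1
      · exact continuous_apply 2
      · exact continuous_apply 3
    have hRw : R w₁ = w₁ := by
      funext j
      fin_cases j
      · show rt (sS k') * w₁ 0 = w₁ 0
        rw [h0, mul_zero]
      · rfl
      · rfl
      · rfl
    have hrt : rt (sS k') ≠ 0 := by
      rw [← norm_ne_zero_iff, norm_rt]
      exact one_ne_zero
    have hRt : Tendsto R (𝓝 w₁) (𝓝 w₁) := by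
      have := hRc.tendsto w₁
      rwa [hRw] at this
    filter_upwards [germ_rot hv hSO h0 (hgm k') (hgm (σ k')) hRc hRw (hst.rot k'), hRt.eventually hl]
      with w k1 k2
    rw [k1, k2]
    show rt (sS k') * w 0 = 0 ↔ w 0 = 0
    rw [mul_eq_zero]
    exact or_iff_right hrt
  have hAi : ∀ n k', A k' ⊆ A (σ^[n] k') := by
    intro n
    induction n with
    | zero => exact fun k' => subset_rfl
    | succ n ih =>
      intro k'
      rw [Function.iterate_succ_apply]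
      exact (hAs k').trans (ih _)
  have hAe : ∀ k', A (σ k') = A k' := by
    intro k'
    refine Subset.antisymm ?_ (hAs k')
    have hp := Function.minimalPeriod_pos_of_mem_periodicPts (σ.injective.mem_periodicPts k')
    obtain ⟨q, hq⟩ : ∃ q, Function.minimalPeriod σ k' = q + 1 :=
      ⟨Function.minimalPeriod σ k' - 1, by omega⟩
    have h1 : σ^[q + 1] k' = k' := by rw [← hq]; exact Function.iterate_minimalPeriod
    rw [Function.iterate_succ_apply] at h1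
    have h2 := hAi q (σ k')
    rwa [h1] at h2
  classical
  set F : Set (Fin r) → Fin r := fun B => if h : B.Nonempty then h.choose else l₁ ⟨0, by omega⟩
    with hF
  have hFm : ∀ k', F (A k') ∈ A k' := by
    intro k'
    have h1 : (A k').Nonempty := ⟨_, hAl k'⟩
    simp only [hF]
    rw [dif_pos h1]
    exact h1.choose_spec
  have hcyc : ∀ l₀ : Fin r, ∃ n : ℕ, (n : ℝ) = ∑ k', if F (A k') = l₀ then 1 / (sS k' : ℝ) else 0 := by
    intro l₀
    obtain ⟨n, hn⟩ := sum_inv_period σ (Finset.univ.filter fun k' => F (A k') = l₀) (by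
      intro k' hk'
      rw [Finset.mem_filter] at hk' ⊢
      exact ⟨Finset.mem_univ _, by rw [hAe]; exact hk'.2⟩)
    refine ⟨n, ?_⟩
    rw [← hn, Finset.sum_filter]
    exact Finset.sum_congr rfl fun k' _ => by rw [hst.per k']
  choose n hn using hcyc
  -- integrality
  choose K hK hun using fun k' => (hgm k').unit
  choose ν Φ u1 u2 u3 u4 using hun
  have hxν : ∀ k' e, (x k' e : ℝ) = (ν k' e : ℝ) / K k' := by
    intro k' e
    have h10 : (K k' : ℝ) ≠ 0 := by exact_mod_cast (Nat.one_le_iff_ne_zero.1 (hK k'))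
    rw [eq_div_iff h10]
    exact_mod_cast (u1 k' e).symm
  have hint : ∀ e, ∃ z : ℤ, (z : ℝ) = ∑ k', (x k' e : ℝ) / (Q e * sS k') := by
    intro e
    obtain ⟨z, hz⟩ := H371.I.int_stp hst hv hO (htw e).lb (i₀ := i₀ e) (hVL e) (hM e) (htw e).hQ
      (htw e).iso (γ := γ) (ch := ch) (μ := fun k' => μ k' e) (i := fun k' => i k' e)
      (K := K) (ν := fun k' => ν k' e) (Φ := fun k' => Φ k' e)
      (fun k' => ((hgm k').lift w₁ (hgm k').mem).1) (fun k' => ((hgm k').lift w₁ (hgm k').mem).2.1)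
      (fun k' => (hgm k').memN w₁ (hgm k').mem e) (fun k' => (hgm k').memU w₁ (hgm k').mem e)
      (fun k' => germ_lift (hgm k')) hK (fun k' => ⟨(u2 k' e).continuousAt, u3 k' e⟩)
      (fun k' => u4 k' e)
    refine ⟨z, ?_⟩
    rw [← hz]
    refine Finset.sum_congr rfl fun k' _ => ?_
    rw [hxν, div_div]
    congr 1
    ring
  choose lam hlam using hint
  have hs0 : ∀ k', (0 : ℝ) < sS k' := fun k' => by exact_mod_cast (hst.s1 k').1
  have hQ0 : ∀ e, (0 : ℝ) < Q e := fun e => by exact_mod_cast (htw e).hQ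
  have hδ0 : 0 ≤ ∑ k', 1 / (sS k' : ℝ) := Finset.sum_nonneg fun k' _ => by
    have := hs0 k'
    positivity
  have hkey : ∀ e : Fin k, (lam (Fin.castAdd s e) : ℝ) + m (Fin.castAdd s e) *
      ∑ k', 1 / (sS k' : ℝ) ≤ 2 * m (Fin.castAdd s e) := by
    intro e
    have h1 := H884.S.stp_key hst hχ (fun e => hM (Fin.castAdd s e)) hNef hm hv hO
      (fun e => (htw _).lb) (fun e => (htw _).hQ) (fun e => (htw _).iso) (fun e => hVL _)
      (fun k' => vl0_of_germ hM htw (hgm k') (hi₀' k')) e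
    have h2 : ∀ k', ((x k' (Fin.castAdd s e) : ℝ) / Q (Fin.castAdd s e) +
        m (Fin.castAdd s e) * (((0 : ℕ) : ℝ) + 1 - 2 * sS k')) / sS k' =
        (x k' (Fin.castAdd s e) : ℝ) / (Q (Fin.castAdd s e) * sS k') +
          m (Fin.castAdd s e) * (1 / (sS k' : ℝ)) - 2 * m (Fin.castAdd s e) := by
      intro k'
      have := (hs0 k').ne'
      have := (hQ0 (Fin.castAdd s e)).ne'
      push_cast
      field_simp
      ring
    rw [Finset.sum_congr rfl fun k' _ => h2 k', Finset.sum_sub_distrib, Finset.sum_add_distrib,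
      ← hlam, ← Finset.mul_sum, Finset.sum_const, Finset.card_univ, Fintype.card_fin,
      nsmul_eq_mul] at h1
    linarith
  have hlam0 : ∀ j : Fin s, (lam (Fin.natAdd k j) : ℝ) ≤ 0 := by
    intro j
    rw [hlam]
    refine Finset.sum_nonpos fun k' _ => ?_
    have h1 : (x k' (Fin.natAdd k j) : ℝ) ≤ 0 := by exact_mod_cast hx0 k' j
    have := hs0 k'
    have := hQ0 (Fin.natAdd k j)
    exact div_nonpos_of_nonpos_of_nonneg h1 (by positivity)
  refine ⟨d, sS, fun k' => F (A k'), w₁, φ, W, γ, ch, μ, i, x, lam, n, hd1,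
    fun k' => (hst.s1 k').1, hgm, fun k' => ?_, hval, hn, hlam, fun e => ?_, ?_⟩
  · obtain ⟨FJ, hF1, hF2, hF3⟩ := (hgm k').jac
    exact isPar_of_det h0 (hgm k').isOpen (hgm k').mem (hgm k').lift (by
      rw [hF3.self_of_nhds, pow_zero, one_mul]; exact hF2) (hFm k')
  · refine Fin.addCases (fun e => ?_) (fun j => ?_) e
    · have h1 := hkey e
      have h2 : (0 : ℝ) ≤ m (Fin.castAdd s e) * ∑ k', 1 / (sS k' : ℝ) :=
        mul_nonneg (Nat.cast_nonneg _) hδ0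
      linarith
    · have h1 := hlam0 j
      have h2 : (0 : ℝ) ≤ m (Fin.natAdd k j) := Nat.cast_nonneg _
      linarith
  · have h1 : ∑ l, (n l : ℝ) = ∑ k', 1 / (sS k' : ℝ) := by
      simp only [hn]
      rw [Finset.sum_comm]
      refine Finset.sum_congr rfl fun k' _ => ?_
      rw [Finset.sum_ite_eq]
      simp
    have h2 : ∑ e : Fin k, ρ (Fin.castAdd s e) * (lam (Fin.castAdd s e) : ℝ) ≤
        2 - ∑ k', 1 / (sS k' : ℝ) := by
      have h3 : ∀ e : Fin k, ρ (Fin.castAdd s e) * (lam (Fin.castAdd s e) : ℝ) ≤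
          ρ (Fin.castAdd s e) * m (Fin.castAdd s e) * (2 - ∑ k', 1 / (sS k' : ℝ)) := by
        intro e
        have h4 := mul_le_mul_of_nonneg_left (hkey e) (hρ (Fin.castAdd s e)).le
        linarith
      refine (Finset.sum_le_sum fun e _ => h3 e).trans (le_of_eq ?_)
      rw [← Finset.sum_mul, hsum, one_mul]
    have h3 : ∑ j : Fin s, ρ (Fin.natAdd k j) * (lam (Fin.natAdd k j) : ℝ) ≤ 0 :=
      Finset.sum_nonpos fun j _ => mul_nonpos_of_nonneg_of_nonpos (hρ _).le (hlam0 j)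
    rw [h1, Fin.sum_univ_add]
    linarith

end Vale.Agent.P277.H335.CC
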